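import Vale.Agent.P355.H998.R.Gl

/-! Residual of many sparse lists, without joining the lists. -/

namespace Vale.Agent.P355.H998.R

open Finset Vale.Agent.P355 Vale.Agent.P355.H387 H138 H693.Inj

variable {F : Bool → Mt → ℝ}

/-- at least `n` entries of the list from entry number `s` on. -/
def wkX (L : List (ℕ × ℕ)) : ℕ → ℕ → ℕ :=
  List.rec (motive := fun _ => ℕ → ℕ → ℕ) (fun _ _ => nat_lit 0)
    (fun c _ ih s n => Bool.rec (motive := fun _ => ℕ)
      ((fun k : ℕ => Nat.add
        (Nat.shiftRight (Nat.land c.2 (Nat.sub (Nat.shiftLeft (nat_lit 1) (Nat.mul (nat_lit 80) c.1))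
          (nat_lit 1))) (Nat.mul (nat_lit 80) s))
        (Bool.rec (motive := fun _ => ℕ) (Nat.shiftLeft (ih (nat_lit 0) (Nat.sub n k))
          (Nat.mul (nat_lit 80) k)) (nat_lit 0) (Nat.ble n k))) (Nat.sub c.1 s))
      (ih (Nat.sub s c.1) n) (Nat.ble c.1 s)) L

theorem en_add_lo {A B k j : ℕ} (hA : A < 2 ^ (80 * k)) (hj : j < k) :
    en (A + B * 2 ^ (80 * k)) j = en A j := by
  unfold en
  obtain ⟨d, rfl⟩ : ∃ d, k = j + 1 + d := ⟨k - (j + 1), by omega⟩
  apply Nat.eq_of_testBit_eq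
  intro t
  rw [Nat.testBit_mod_two_pow, Nat.testBit_mod_two_pow, Nat.testBit_shiftRight,
    Nat.testBit_shiftRight, mul_comm B, add_comm A, Nat.testBit_two_pow_mul_add _ hA]
  by_cases ht : t < 80
  · have h1 : 80 * j + t < 80 * (j + 1 + d) := by omega
    simp [ht, h1]
  · simp [ht]

theorem en_add_hi {A B k : ℕ} (hA : A < 2 ^ (80 * k)) (j : ℕ) :
    en (A + B * 2 ^ (80 * k)) (k + j) = en B j := by
  unfold en
  congr 1
  rw [Nat.shiftRight_eq_div_pow, Nat.shiftRight_eq_div_pow, mul_add, pow_add,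
    ← Nat.div_div_eq_div_mul, Nat.add_mul_div_right _ _ (by positivity),
    Nat.div_eq_of_lt hA, zero_add]

theorem wkX_cons (c : ℕ × ℕ) (L : List (ℕ × ℕ)) (s n : ℕ) : wkX (c :: L) s n
    = Bool.rec (motive := fun _ => ℕ)
      ((c.2 % 2 ^ (80 * c.1)) / 2 ^ (80 * s)
        + Bool.rec (motive := fun _ => ℕ) (wkX L 0 (n - (c.1 - s)) * 2 ^ (80 * (c.1 - s))) 0
          (Nat.ble n (c.1 - s)))
      (wkX L (s - c.1) n) (Nat.ble c.1 s) := by
  have e0 : Nat.land c.2 (Nat.sub (Nat.shiftLeft 1 (Nat.mul 80 c.1)) 1) = c.2 % 2 ^ (80 * c.1) := by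
    have : Nat.sub (Nat.shiftLeft 1 (Nat.mul 80 c.1)) 1 = 2 ^ (80 * c.1) - 1 := by
      have e : Nat.shiftLeft 1 (Nat.mul 80 c.1) = 1 * 2 ^ (80 * c.1) := Nat.shiftLeft_eq _ _
      rw [e, one_mul]; rfl
    rw [this]
    exact Nat.and_two_pow_sub_one_eq_mod _ _
  have e1 : wkX (c :: L) s n = Bool.rec (motive := fun _ => ℕ)
      (Nat.add (Nat.shiftRight (Nat.land c.2 (Nat.sub (Nat.shiftLeft 1 (Nat.mul 80 c.1)) 1))
          (Nat.mul 80 s))
        (Bool.rec (motive := fun _ => ℕ) (Nat.shiftLeft (wkX L 0 (Nat.sub n (c.1 - s)))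
          (Nat.mul 80 (c.1 - s))) 0 (Nat.ble n (c.1 - s))))
      (wkX L (s - c.1) n) (Nat.ble c.1 s) := rfl
  rw [e1, e0]
  have e2 : Nat.shiftRight (c.2 % 2 ^ (80 * c.1)) (Nat.mul 80 s)
      = (c.2 % 2 ^ (80 * c.1)) / 2 ^ (80 * s) := Nat.shiftRight_eq_div_pow _ _
  have e3 : Nat.shiftLeft (wkX L 0 (Nat.sub n (c.1 - s))) (Nat.mul 80 (c.1 - s))
      = wkX L 0 (n - (c.1 - s)) * 2 ^ (80 * (c.1 - s)) := Nat.shiftLeft_eq _ _
  rw [e2, e3]
  rfl

theorem wkX_en (L : List (ℕ × ℕ)) : ∀ s n j, j < n → en (wkX L s n) j = en (jn L) (s + j) := by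
  induction L with
  | nil =>
    intro s n j _
    have e1 : wkX [] s n = 0 := rfl
    have e2 : jn [] = 0 := rfl
    rw [e1, e2]
    simp [en]
  | cons c L ih =>
    intro s n j hj
    rw [wkX_cons]
    cases h : Nat.ble c.1 s with
    | true =>
      have h1 : c.1 ≤ s := Nat.le_of_ble_eq_true h
      show en (wkX L (s - c.1) n) j = _
      rw [ih _ _ _ hj, ← en_hi c L]
      congr 1
      omega
    | false =>
      have h1 : s < c.1 := by
        by_contra hc
        have : Nat.ble c.1 s = true := Nat.ble_eq_true_of_le (by omega)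
        rw [this] at h; exact absurd h (by simp)
      obtain ⟨k, hk⟩ : ∃ k, c.1 = s + k := ⟨c.1 - s, by omega⟩
      have hk' : c.1 - s = k := by omega
      rw [hk']
      have hA : (c.2 % 2 ^ (80 * c.1)) / 2 ^ (80 * s) < 2 ^ (80 * k) := by
        rw [Nat.div_lt_iff_lt_mul (by positivity), ← pow_add]
        have : 80 * k + 80 * s = 80 * c.1 := by rw [hk]; ring
        rw [this]
        exact Nat.mod_lt _ (by positivity)
      show en ((c.2 % 2 ^ (80 * c.1)) / 2 ^ (80 * s)
        + Bool.rec (motive := fun _ => ℕ) (wkX L 0 (n - k) * 2 ^ (80 * k)) 0 (Nat.ble n k)) j = _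
      by_cases hjk : j < k
      · have e1 : en ((c.2 % 2 ^ (80 * c.1)) / 2 ^ (80 * s)
            + Bool.rec (motive := fun _ => ℕ) (wkX L 0 (n - k) * 2 ^ (80 * k)) 0 (Nat.ble n k)) j
            = en ((c.2 % 2 ^ (80 * c.1)) / 2 ^ (80 * s)) j := by
          cases Nat.ble n k with
          | true => rfl
          | false => exact en_add_lo hA hjk
        rw [e1, en_lo c L (by omega)]
        unfold en
        apply Nat.eq_of_testBit_eq
        intro t
        rw [Nat.testBit_mod_two_pow, Nat.testBit_mod_two_pow, Nat.testBit_shiftRight,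
          Nat.testBit_shiftRight, ← Nat.shiftRight_eq_div_pow, Nat.testBit_shiftRight,
          Nat.testBit_mod_two_pow]
        by_cases ht : t < 80
        · have h2 : 80 * s + (80 * j + t) < 80 * c.1 := by omega
          have h3 : 80 * s + (80 * j + t) = 80 * (s + j) + t := by ring
          rw [h3] at h2
          rw [h3]
          simp [ht, h2]
        · simp [ht]
      · have hn : Nat.ble n k = false := by
          by_contra hc
          have := Nat.le_of_ble_eq_true (by simpa using hc : Nat.ble n k = true)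
          omega
        rw [hn]
        show en ((c.2 % 2 ^ (80 * c.1)) / 2 ^ (80 * s) + wkX L 0 (n - k) * 2 ^ (80 * k)) j = _
        obtain ⟨i, rfl⟩ : ∃ i, j = k + i := ⟨j - k, by omega⟩
        rw [en_add_hi hA, ih 0 (n - k) i (by omega), zero_add,
          show s + (k + i) = c.1 + i from by omega, en_hi]

/-- the entries of the list between two offsets. -/
def blW (m : List (ℕ × ℕ)) (K b : ℕ) : List (ℕ × ℕ) :=
  List.cons (Nat.sub (ofK K (Nat.succ b)) (ofK K b),
    wkX m (ofK K b) (Nat.sub (ofK K (Nat.succ b)) (ofK K b))) List.nil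

theorem blW_ev (ct : CT) (m : List (ℕ × ℕ)) (K b : ℕ) :
    evL F ct (blW m K b) = evL F ct (blk m K b) := by
  have e1 : evL F ct (blW m K b) = evN F ct (ofK K (b + 1) - ofK K b)
      (wkX m (ofK K b) (ofK K (b + 1) - ofK K b)) := by
    unfold evL blW
    rw [List.map_cons, List.sum_cons, List.map_nil, List.sum_nil, add_zero]
    rfl
  rw [e1, evN_sum, blk_ev]
  exact sum_congr rfl fun j hj => congrArg _ (wkX_en m _ _ j (mem_range.1 hj))

/-- block `b` of all lists. -/
def colW (b : ℕ) (L : List (List (ℕ × ℕ) × ℕ)) : List (List (ℕ × ℕ)) :=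
  List.rec (motive := fun _ => List (List (ℕ × ℕ))) List.nil
    (fun p _ ih => List.cons (blW p.1 p.2 b) ih) L

theorem colW_sum (ct : CT) (b : ℕ) (L : List (List (ℕ × ℕ) × ℕ)) :
    ((colW b L).map (evL F ct)).sum = ((colB b L).map (evL F ct)).sum := by
  induction L with
  | nil => rfl
  | cons p L ih =>
    have e1 : colW b (p :: L) = blW p.1 p.2 b :: colW b L := rfl
    have e2 : colB b (p :: L) = blk p.1 p.2 b :: colB b L := rfl
    rw [e1, e2, List.map_cons, List.map_cons, List.sum_cons, List.sum_cons, ih, blW_ev]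

/-- bound for block `b`. -/
def RW (ct : CT) (BL AL : List (List (ℕ × ℕ) × ℕ)) (b E : ℕ) : Prop :=
  ∀ (F : Bool → Mt → ℝ) (c : ℝ), (∀ b M, |F b M| ≤ c) →
    |((colB b BL).map (evL F ct)).sum - ((colB b AL).map (evL F ct)).sum| ≤ c * E

/-- residual of block `b` (4096 identifiers). -/
def rW (BL AL : List (List (ℕ × ℕ) × ℕ)) (b E : ℕ) : Bool :=
  resX (nat_lit 4096) (nat_lit 12) (Nat.mul (nat_lit 4096) b) (colW b BL) (colW b AL) E

theorem RW.of (ct : CT) {BL AL : List (List (ℕ × ℕ) × ℕ)} {b E : ℕ} (h : rW BL AL b E = true) :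
    RW ct BL AL b E := by
  intro F c hc
  rw [← colW_sum, ← colW_sum]
  exact resX_sound hc h

theorem RW.ofB (ct : CT) {BL AL : List (List (ℕ × ℕ) × ℕ)} {b E : ℕ} (h : rB BL AL b E = true) :
    RW ct BL AL b E := fun _ _ hc => resX_sound hc h

/-- bounds for consecutive blocks. -/
def HW (ct : CT) (BL AL : List (List (ℕ × ℕ) × ℕ)) (b : ℕ) (Es : List ℕ) : Prop :=
  ∀ i < Es.length, RW ct BL AL (b + i) (Es.getD i 0)

theorem HW.nil {ct : CT} {BL AL : List (List (ℕ × ℕ) × ℕ)} {b : ℕ} : HW ct BL AL b [] := by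
  intro i hi; simp at hi

theorem HW.cons {ct : CT} {BL AL : List (List (ℕ × ℕ) × ℕ)} {b E : ℕ} {Es : List ℕ}
    (h : RW ct BL AL b E) (h' : HW ct BL AL (b + 1) Es) : HW ct BL AL b (E :: Es) := by
  intro i hi
  match i with
  | 0 => simpa using h
  | i + 1 =>
    have := h' i (by simpa using hi)
    rw [show b + (i + 1) = b + 1 + i from by ring]
    simpa using this

/-- **The total residual.** -/
theorem totalW {c : ℝ} (hc : ∀ b M, |F b M| ≤ c) {ct : CT} {NB : ℕ}
    {BL AL : List (List (ℕ × ℕ) × ℕ)} {Es : List ℕ} (hB : okA NB BL = true)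
    (hA : okA NB AL = true) (hE : Es.length = NB) (h : HW ct BL AL 0 Es) :
    |(BL.map fun p => evL F ct p.1).sum - (AL.map fun p => evL F ct p.1).sum|
      ≤ c * ((Es.sum : ℕ) : ℝ) := by
  rw [← okA_sum hB ct, ← okA_sum hA ct, ← sum_sub_distrib]
  refine (abs_sum_le_sum_abs _ _).trans ?_
  rw [← sum_getD, hE, Nat.cast_sum, mul_sum]
  refine sum_le_sum fun b hb => ?_
  have h1 := h b (by rw [hE]; exact mem_range.1 hb)
  rw [zero_add] at h1
  exact h1 F c hc

theorem cat_cons (m : List (ℕ × ℕ)) (l : List (List (ℕ × ℕ))) : cat (m :: l) = m ++ cat l := rfl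

/-- sum over a group of lists. -/
theorem sum_cat (ct : CT) {g : List (List (ℕ × ℕ) × ℕ)} {l : List (List (ℕ × ℕ))}
    (h : g.map Prod.fst = l) : (g.map fun p => evL F ct p.1).sum = evL F ct (cat l) := by
  rw [evL_cat, ← h, List.map_map]
  rfl

theorem sum_app (ct : CT) (g g' : List (List (ℕ × ℕ) × ℕ)) :
    ((g ++ g').map fun p => evL F ct p.1).sum = (g.map fun p => evL F ct p.1).sum
      + (g'.map fun p => evL F ct p.1).sum := by
  rw [List.map_append, List.sum_append]

end Vale.Agent.P355.H998.R
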