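import Vale.Agent.P355.H998.R.Ac
import Vale.Agent.P355.H138.AFin
import Vale.Agent.P355.H693.FinM

/-! Fast rows: relations of arrays. -/

namespace Vale.Agent.P355.H998.R

open Vale.Agent.P355 Vale.Agent.P355.H387 H138 H693.Inj

variable {x : Fin 7 → Fin 7 → ℂ}

/-- rows without marks. -/
theorem rwP_good (hx : Base x) (hN : H182.N7x x) {ct : CT} {O : ℕ} {L : List (List ℕ)}
    {out : List (ℕ × ℕ)} (hO : O = jn out) (hv : VL legG hdG ct O L)
    (hk : accX hdG L out = true) : RwP x ct out :=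
  evL_zero (lawG (H693.Inj.law_base hx hN)) okN_G hO hv hk

/-- rows with marks. -/
theorem rwP_mark (hx : H138.Good true x) (hN : H182.N7x x) {ct : CT} {O : ℕ} {L : List (List ℕ)}
    {out : List (ℕ × ℕ)} (hO : O = jn out) (hv : VL legM hdM ct O L)
    (hk : accX hdM L out = true) : RwP x ct out :=
  evL_zero (lawM (H693.Inj.law_full (H693.full_of hx hN))) okN_M hO hv hk

/-- rows with a mark orthogonal to the gauge vector. -/
theorem rwP_ext0 (hx : H693.Ext0 x) (hN : H182.N7x x) {ct : CT} {O : ℕ} {L : List (List ℕ)}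
    {out : List (ℕ × ℕ)} (hO : O = jn out) (hv : VL legM hd0 ct O L)
    (hk : accX hd0 L out = true) : RwP x ct out :=
  evL_zero (law0 (Z.law_ext0 hx hN)) okN_M hO hv hk

end Vale.Agent.P355.H998.R
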