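import Vale.Agent.P355.H998.R.Rs
import Vale.Agent.P355.H998.R.Fin

/-! Residual of many sparse lists over blocks of identifiers. -/

namespace Vale.Agent.P355.H998.R

open Finset Vale.Agent.P355 Vale.Agent.P355.H387 H138 H693.Inj

variable {F : Bool → Mt → ℝ}

/-- offset number `b`, 20 bits each. -/
def ofK (K b : ℕ) : ℕ := Nat.land (Nat.shiftRight K (Nat.mul (nat_lit 20) b)) (nat_lit 1048575)

/-- the entries of the list between two offsets. -/
def blk (m : List (ℕ × ℕ)) (K b : ℕ) : List (ℕ × ℕ) :=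
  List.cons (Nat.sub (ofK K (Nat.succ b)) (ofK K b),
    Nat.shiftRight (jn m) (Nat.mul (nat_lit 80) (ofK K b))) List.nil

theorem blk_ev (ct : CT) (m : List (ℕ × ℕ)) (K b : ℕ) : evL F ct (blk m K b)
    = ∑ j ∈ range (ofK K (b + 1) - ofK K b), ev F ct (en (jn m) (ofK K b + j)) := by
  have e1 : evL F ct (blk m K b) = evN F ct (ofK K (b + 1) - ofK K b)
      (Nat.shiftRight (jn m) (80 * ofK K b)) := by
    unfold evL blk
    rw [List.map_cons, List.sum_cons, List.map_nil, List.sum_nil, add_zero]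
    rfl
  rw [e1, evN_sum]
  refine sum_congr rfl fun j _ => ?_
  unfold en
  congr 2
  show (jn m >>> (80 * ofK K b)) >>> (80 * j) = _
  rw [← Nat.shiftRight_add, Nat.mul_add]

/-- increasing offsets. -/
def monoK (K : ℕ) : ℕ → Bool :=
  Nat.rec (motive := fun _ => Bool) true fun b ih => Bool.rec (motive := fun _ => Bool) false ih
    (Nat.ble (ofK K b) (ofK K (Nat.succ b)))

/-- the offsets increase from zero to the length. -/
def okK (NB : ℕ) (m : List (ℕ × ℕ)) (K : ℕ) : Bool :=
  Bool.rec (motive := fun _ => Bool) false (Bool.rec (motive := fun _ => Bool) false (monoK K NB)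
    (Nat.beq (ofK K NB) (nn m))) (Nat.beq (ofK K (nat_lit 0)) (nat_lit 0))

theorem monoK_sum (ct : CT) (m : List (ℕ × ℕ)) (K : ℕ) (h0 : ofK K 0 = 0) (n : ℕ) :
    monoK K n = true →
    ∑ b ∈ range n, evL F ct (blk m K b) = ∑ j ∈ range (ofK K n), ev F ct (en (jn m) j) := by
  induction n with
  | zero => intro _; rw [h0]; simp
  | succ n ih =>
    intro h
    obtain ⟨h1, h2⟩ := bct (t := monoK K n) (b := Nat.ble (ofK K n) (ofK K (Nat.succ n))) h
    have h3 : ofK K n ≤ ofK K (n + 1) := Nat.le_of_ble_eq_true h1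
    rw [sum_range_succ, ih h2, blk_ev]
    obtain ⟨d, hd⟩ : ∃ d, ofK K (n + 1) = ofK K n + d := ⟨_, (Nat.add_sub_cancel' h3).symm⟩
    rw [hd, Nat.add_sub_cancel_left, sum_range_add]

theorem okK_sum {NB K : ℕ} {m : List (ℕ × ℕ)} (h : okK NB m K = true) (ct : CT) :
    ∑ b ∈ range NB, evL F ct (blk m K b) = evL F ct m := by
  obtain ⟨h1, h2⟩ := bct (t := Bool.rec (motive := fun _ => Bool) false (monoK K NB)
    (Nat.beq (ofK K NB) (nn m))) (b := Nat.beq (ofK K 0) 0) h
  obtain ⟨h3, h4⟩ := bct h2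
  rw [monoK_sum ct m K (Nat.eq_of_beq_eq_true h1) NB h4, Nat.eq_of_beq_eq_true h3, evL_sum]

/-- all offset tables are valid. -/
def okA (NB : ℕ) (L : List (List (ℕ × ℕ) × ℕ)) : Bool :=
  List.rec (motive := fun _ => Bool) true (fun p _ ih => Bool.rec (motive := fun _ => Bool) false ih
    (okK NB p.1 p.2)) L

/-- block `b` of all lists. -/
def colB (b : ℕ) (L : List (List (ℕ × ℕ) × ℕ)) : List (List (ℕ × ℕ)) :=
  List.rec (motive := fun _ => List (List (ℕ × ℕ))) List.nil
    (fun p _ ih => List.cons (blk p.1 p.2 b) ih) L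

theorem okA_sum {NB : ℕ} {L : List (List (ℕ × ℕ) × ℕ)} (h : okA NB L = true) (ct : CT) :
    ∑ b ∈ range NB, ((colB b L).map (evL F ct)).sum = (L.map fun p => evL F ct p.1).sum := by
  induction L with
  | nil => simp [colB]
  | cons p L ih =>
    obtain ⟨h1, h2⟩ := bct (t := okA NB L) (b := okK NB p.1 p.2) h
    rw [List.map_cons, List.sum_cons, ← ih h2, ← okK_sum h1 ct, ← sum_add_distrib]
    exact sum_congr rfl fun b _ => rfl

/-- residual of block `b` (4096 identifiers). -/
def rB (BL AL : List (List (ℕ × ℕ) × ℕ)) (b E : ℕ) : Bool :=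
  resX (nat_lit 4096) (nat_lit 12) (Nat.mul (nat_lit 4096) b) (colB b BL) (colB b AL) E

/-- residuals of consecutive blocks. -/
def HB (BL AL : List (List (ℕ × ℕ) × ℕ)) (b : ℕ) (Es : List ℕ) : Prop :=
  ∀ i < Es.length, rB BL AL (b + i) (Es.getD i 0) = true

theorem HB.nil {BL AL : List (List (ℕ × ℕ) × ℕ)} {b : ℕ} : HB BL AL b [] := by
  intro i hi; simp at hi

theorem HB.cons {BL AL : List (List (ℕ × ℕ) × ℕ)} {b E : ℕ} {Es : List ℕ}
    (h : rB BL AL b E = true) (h' : HB BL AL (b + 1) Es) : HB BL AL b (E :: Es) := by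
  intro i hi
  match i with
  | 0 => simpa using h
  | i + 1 =>
    have := h' i (by simpa using hi)
    rw [show b + (i + 1) = b + 1 + i from by ring]
    simpa using this

theorem sum_getD (Es : List ℕ) : ∑ i ∈ range Es.length, Es.getD i 0 = Es.sum := by
  induction Es with
  | nil => simp
  | cons E Es ih =>
    rw [List.length_cons, sum_range_succ', List.sum_cons, add_comm]
    simpa using ih

/-- **The total residual.** -/
theorem total {c : ℝ} (hc : ∀ b M, |F b M| ≤ c) {ct : CT} {NB : ℕ}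
    {BL AL : List (List (ℕ × ℕ) × ℕ)} {Es : List ℕ} (hB : okA NB BL = true)
    (hA : okA NB AL = true) (hE : Es.length = NB) (h : HB BL AL 0 Es) :
    |(BL.map fun p => evL F ct p.1).sum - (AL.map fun p => evL F ct p.1).sum|
      ≤ c * ((Es.sum : ℕ) : ℝ) := by
  rw [← okA_sum hB ct, ← okA_sum hA ct, ← sum_sub_distrib]
  refine (abs_sum_le_sum_abs _ _).trans ?_
  rw [← sum_getD, hE, Nat.cast_sum, mul_sum]
  refine sum_le_sum fun b hb => ?_
  have h1 := h b (by rw [hE]; exact mem_range.1 hb)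
  rw [zero_add] at h1
  exact resX_sound hc h1

/-- concatenation of lists. -/
def cat (L : List (List (ℕ × ℕ))) : List (ℕ × ℕ) := L.flatten

theorem evL_cat (ct : CT) (L : List (List (ℕ × ℕ))) :
    evL F ct (cat L) = (L.map (evL F ct)).sum := by
  induction L with
  | nil => simp [cat, evL]
  | cons m L ih =>
    have : cat (m :: L) = m ++ cat L := by simp [cat]
    rw [this, evL_append, ih, List.map_cons, List.sum_cons]

theorem rwP_cat {x : Fin 7 → Fin 7 → ℂ} {ct : CT} {L : List (List (ℕ × ℕ))}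
    (h : ∀ m ∈ L, RwP x ct m) : RwP x ct (cat L) := by
  unfold RwP at *
  rw [evL_cat]
  induction L with
  | nil => simp
  | cons m L ih =>
    rw [List.map_cons, List.sum_cons, h m List.mem_cons_self,
      ih fun m' hm' => h m' (List.mem_cons_of_mem _ hm'), add_zero]

end Vale.Agent.P355.H998.R
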