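import Vale.Agent.P355.H998.R.Sc

/-! Packed scatter of a sparse list; sums of lists; norm of the residual. -/

namespace Vale.Agent.P355.H998.R

open Finset Vale.Agent.P355 Vale.Agent.P355.H387 H138 H693.Inj

variable {F : Bool → Mt → ℝ}

/-! ### The start -/

/-- the number with digits `j + 1`. -/
def s1X (on n : ℕ) : ℕ := Nat.div (Nat.sub (Nat.shiftLeft n (Nat.mul (nat_lit 80) n)) on)
  (nat_lit 1208925819614629174706175)

theorem s1X_eq (n : ℕ) : s1X (onX n) n = ofB n fun j => j + 1 := by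
  have key : ∀ n : ℕ, ofB n (fun j => j + 1) * (2 ^ 80 - 1) + ofB n (fun _ => 1) = n * 2 ^ (80 * n) := by
    intro n
    induction n with
    | zero => simp [ofB]
    | succ n ih =>
      have h1 : ofB (n + 1) (fun j => j + 1) = ofB n (fun j => j + 1) + (n + 1) * 2 ^ (80 * n) := by
        unfold ofB; exact sum_range_succ _ _
      have h2 : ofB (n + 1) (fun _ => 1) = ofB n (fun _ => 1) + 1 * 2 ^ (80 * n) := by
        unfold ofB; exact sum_range_succ _ _
      have h3 : (2 : ℕ) ^ (80 * (n + 1)) = 2 ^ 80 * 2 ^ (80 * n) := by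
        rw [← pow_add]; congr 1; ring
      rw [h1, h2, h3]
      generalize (2 : ℕ) ^ (80 * n) = B at ih ⊢
      generalize ofB n (fun j => j + 1) = a at ih ⊢
      generalize ofB n (fun _ => 1) = b at ih ⊢
      have h4 : (2 : ℕ) ^ 80 = (2 ^ 80 - 1) + 1 := by norm_num
      generalize (2 ^ 80 - 1 : ℕ) = q at ih h4 ⊢
      rw [h4]
      calc (a + (n + 1) * B) * q + (b + 1 * B) = (a * q + b) + (n + 1) * B * q + B := by ring
        _ = n * B + (n + 1) * B * q + B := by rw [ih]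
        _ = (n + 1) * ((q + 1) * B) := by ring
  have h := key n
  have h1 : s1X (onX n) n = (n * 2 ^ (80 * n) - ofB n (fun _ => 1)) / (2 ^ 80 - 1) := by
    show (Nat.shiftLeft n (80 * n) - onX n) / (1208925819614629174706175) = _
    rw [shl_eq, onX_eq]
    norm_num
  rw [h1, ← h, Nat.add_sub_cancel]
  exact Nat.mul_div_cancel _ (by norm_num)

/-- the number with digits `j + β`. -/
def jbX (on n β : ℕ) : ℕ := Nat.sub (Nat.add (s1X on n) (Nat.mul β on)) on

theorem jbX_eq (n β : ℕ) : jbX (onX n) n β = ofB n fun j => j + β := by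
  have h1 : jbX (onX n) n β = s1X (onX n) n + β * onX n - onX n := rfl
  have h2 : β * onX n = ofB n fun _ => β := by
    rw [onX_eq, mul_comm, ofB_mul]
    exact ofB_congr fun i _ => one_mul β
  have h3 : ofB n (fun j => j + 1) + (ofB n fun _ => β) = ofB n (fun j => j + β) + ofB n fun _ => 1 := by
    rw [ofB_add, ofB_add]
    exact ofB_congr fun i _ => by ring
  rw [h1, h2, s1X_eq, h3, onX_eq, Nat.add_sub_cancel]

/-- start of the scatter: displacements and occupation bits. -/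
def x0X (on n β O : ℕ) : ℕ := Nat.add (Nat.sub O (jbX on n β)) (Nat.mul on (nat_lit 604462909807314587353088))

/-- check of the start. -/
def c0X (on n β O S : ℕ) : Bool :=
  (fun D : ℕ => Nat.beq (Nat.lor (Nat.lor
    (Nat.xor (Nat.add D (jbX on n β)) O)
    (Nat.xor (Nat.land (Nat.shiftRight D (nat_lit 18)) (Nat.mul on (nat_lit 4611686018427387903)))
      (Nat.land (Nat.shiftRight O (nat_lit 18)) (Nat.mul on (nat_lit 4611686018427387903)))))
    (Nat.lor (Nat.land (Nat.shiftRight O (nat_lit 79)) on)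
      (Nat.land (Nat.land D (Nat.mul on (nat_lit 262143)))
        (Nat.mul on (Nat.sub (nat_lit 262144) (Nat.shiftLeft (nat_lit 1) S))))))
    (nat_lit 0)) (Nat.sub O (jbX on n β))

theorem hi62 {N X : ℕ} {f : ℕ → ℕ} (hX : X = ofB N f) (hf : ∀ i < N, f i < 2 ^ 80) :
    Nat.land (Nat.shiftRight X 18) (Nat.mul (onX N) 4611686018427387903)
      = ofB N fun i => f i / 2 ^ 18 := by
  apply Nat.eq_of_testBit_eq
  intro k
  rw [ofB_testBit N _ fun i hi => lt_of_le_of_lt (Nat.div_le_self _ _) (hf i hi)]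
  show ((X >>> 18) &&& (onX N * 4611686018427387903)).testBit k = _
  rw [onX_eq, ofB_mul, Nat.testBit_and, Nat.testBit_shiftRight,
    ofB_testBit N _ fun i _ => by norm_num, hX, ofB_testBit N f hf]
  have e1 : (1 * 4611686018427387903 : ℕ) = 2 ^ 62 - 1 := by norm_num
  rw [e1, Nat.testBit_two_pow_sub_one]
  have e4 : (f (k / 80) / 2 ^ 18).testBit (k % 80) = (f (k / 80)).testBit (18 + k % 80) := by
    rw [← Nat.shiftRight_eq_div_pow, Nat.testBit_shiftRight]
  rw [e4]
  by_cases h1 : k % 80 < 62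
  · have e2 : (18 + k) / 80 = k / 80 := by omega
    have e3 : (18 + k) % 80 = 18 + k % 80 := by omega
    rw [e2, e3]
    by_cases h2 : k / 80 < N <;> simp [h1, h2]
  · by_cases h2 : k / 80 < N
    · have e5 : (f (k / 80)).testBit (18 + k % 80) = false := by
        apply Nat.testBit_lt_two_pow
        exact lt_of_lt_of_le (hf _ h2) (Nat.pow_le_pow_right (by norm_num) (by omega))
      simp [h1, e5]
    · simp [h1, h2]

theorem ofB_inj {N : ℕ} {f g : ℕ → ℕ} (hf : ∀ i < N, f i < 2 ^ 80) (hg : ∀ i < N, g i < 2 ^ 80)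
    (h : ofB N f = ofB N g) : ∀ i < N, f i = g i := by
  intro i hi
  apply Nat.eq_of_testBit_eq
  intro t
  rcases Nat.lt_or_ge t 80 with ht | ht
  · have h1 := congrArg (fun Y => Nat.testBit Y (80 * i + t)) h
    simp only [ofB_testBit N f hf, ofB_testBit N g hg] at h1
    have e1 : (80 * i + t) / 80 = i := by omega
    have e2 : (80 * i + t) % 80 = t := by omega
    rw [e1, e2] at h1
    simpa [hi] using h1
  · rw [Nat.testBit_lt_two_pow (lt_of_lt_of_le (hf i hi) (Nat.pow_le_pow_right (by norm_num) ht)),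
      Nat.testBit_lt_two_pow (lt_of_lt_of_le (hg i hi) (Nat.pow_le_pow_right (by norm_num) ht))]

theorem ofB_zero_iff {N : ℕ} {f : ℕ → ℕ} (h : ofB N f = 0) : ∀ i < N, f i = 0 := by
  intro i hi
  have h1 := (sum_eq_zero_iff.1 h) i (mem_range.2 hi)
  rcases Nat.mul_eq_zero.1 h1 with h2 | h2
  · exact h2
  · exact absurd h2 (by positivity)

/-- digits of a sum without carries. -/
theorem nocarry (n : ℕ) : ∀ (e d : ℕ → ℕ) (β : ℕ), (∀ i < n, e i < 2 ^ 80) → (∀ i < n, d i < 2 ^ 80) →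
    (∀ i < n, d i / 2 ^ 18 = e i / 2 ^ 18) → β + n ≤ 2 ^ 30 →
    ofB n e = ofB n d + (ofB n fun j => j + β) → ∀ i < n, e i = d i + (i + β) := by
  induction n with
  | zero => intro e d β _ _ _ _ _ i hi; omega
  | succ n ih =>
    intro e d β he hd hq hβ h
    rw [ofB_succ, ofB_succ, ofB_succ] at h
    have e0 := he 0 (by omega)
    have d0 := hd 0 (by omega)
    have q0 := hq 0 (by omega)
    generalize hA : ofB n (fun i => e (i + 1)) = A at h
    generalize hB : ofB n (fun i => d (i + 1)) = B at h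
    generalize hC : (ofB n fun i => i + 1 + β) = C at h
    have h1 : e 0 = d 0 + β := by
      have : (2 : ℕ) ^ 80 = 1208925819614629174706176 := by norm_num
      rw [this] at h e0 d0
      norm_num at q0 hβ
      omega
    have h2 : A = B + C := by
      have : (2 : ℕ) ^ 80 = 1208925819614629174706176 := by norm_num
      rw [this] at h
      omega
    intro i hi
    rcases i with _ | i
    · rw [h1]; ring
    · have h3 := ih (fun i => e (i + 1)) (fun i => d (i + 1)) (β + 1)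
        (fun i hi => he (i + 1) (by omega)) (fun i hi => hd (i + 1) (by omega))
        (fun i hi => hq (i + 1) (by omega)) (by omega)
        (by
          rw [hA, hB, h2, ← hC]
          congr 1
          exact ofB_congr fun i _ => by ring) i (by omega)
      rw [show e (i + 1) = d (i + 1) + (i + (β + 1)) from h3]
      ring

/-- value of the class number `i`. -/
noncomputable def gv (F : Bool → Mt → ℝ) (ct : CT) (i : ℕ) : ℝ :=
  FV F (ct.get (Nat.shiftRight (i % 2 ^ 18) 6) (Nat.land (i % 2 ^ 18) 63))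

theorem ev_gv (ct : CT) {e : ℕ} (he : e < 2 ^ 79) : ev F ct e = wt e * gv F ct e := by
  unfold ev wt gv
  have e2 : Nat.land (Nat.shiftRight e 6) 4095 = Nat.shiftRight (e % 2 ^ 18) 6 := by
    have h1 : Nat.land (Nat.shiftRight e 6) 4095 = (e / 2 ^ 6) % 2 ^ 12 := by
      rw [← Nat.shiftRight_eq_div_pow]
      exact Nat.and_two_pow_sub_one_eq_mod _ 12
    have h2 : Nat.shiftRight (e % 2 ^ 18) 6 = (e % 2 ^ 18) / 2 ^ 6 :=
      Nat.shiftRight_eq_div_pow _ _
    rw [h1, h2]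
    omega
  have e3 : Nat.land e 63 = Nat.land (e % 2 ^ 18) 63 := by
    have h1 : ∀ a, Nat.land a 63 = a % 2 ^ 6 := fun a => Nat.and_two_pow_sub_one_eq_mod _ 6
    rw [h1, h1]
    omega
  rw [e2, e3]
  have e4 : mag e % 2 ^ 60 = mag e := by
    apply Nat.mod_eq_of_lt
    unfold mag
    rw [show Nat.shiftRight e 19 = e / 2 ^ 19 from Nat.shiftRight_eq_div_pow _ _,
      Nat.div_lt_iff_lt_mul (by positivity)]
    calc e < 2 ^ 79 := he
      _ = 2 ^ 60 * 2 ^ 19 := by norm_num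
  rw [e4]
  have e5 : ((Nat.shiftRight e 19 : ℕ) : ℝ) = (mag e : ℝ) := rfl
  rw [e5]
  congr 2
  show (if sgn e = 0 then (1 : ℝ) else -1) = _
  rcases sgn_or e with h | h <;> rw [h] <;> norm_num

theorem pw79 : (2 : ℕ) ^ 79 = 604462909807314587353088 := by norm_num
theorem pw80 : (2 : ℕ) ^ 80 = 1208925819614629174706176 := by norm_num

theorem lt79_of {e : ℕ} (h1 : e / 2 ^ 79 % 2 = 0) (h2 : e < 2 ^ 80) : e < 2 ^ 79 := by
  rw [pw79] at h1 ⊢
  rw [pw80] at h2
  omega

theorem wt_shift {d e : ℕ} (h : d / 2 ^ 18 = e / 2 ^ 18) : wt (d + 2 ^ 79) = wt e := by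
  unfold wt sgn mag
  have a1 : ∀ a, Nat.land (Nat.shiftRight a 18) 1 = (a / 2 ^ 18) % 2 := fun a => by
    rw [land1]; exact congrArg (· % 2) (Nat.shiftRight_eq_div_pow _ _)
  have a2 : ∀ a, Nat.shiftRight a 19 = a / 2 ^ 19 := fun a => Nat.shiftRight_eq_div_pow _ _
  have a3 : (d + 2 ^ 79) / 2 ^ 18 = e / 2 ^ 18 + 2 ^ 61 := by
    rw [← h, show (2 : ℕ) ^ 79 = 2 ^ 61 * 2 ^ 18 by norm_num, Nat.add_mul_div_right _ _ (by positivity)]
  have b1 : ∀ a : ℕ, a / 2 ^ 19 = (a / 2 ^ 18) / 2 := fun a => by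
    rw [Nat.div_div_eq_div_mul, ← pow_succ]
  have a5 : (e / 2 ^ 18 + 2 ^ 61) % 2 = e / 2 ^ 18 % 2 := by
    generalize e / 2 ^ 18 = q
    norm_num
    omega
  have a6 : (e / 2 ^ 18 + 2 ^ 61) / 2 % 2 ^ 60 = e / 2 ^ 18 / 2 % 2 ^ 60 := by
    generalize e / 2 ^ 18 = q
    norm_num
    omega
  rw [a1, a1, a2, a2, b1, b1, a3, a5, a6]

theorem gv_shift (F : Bool → Mt → ℝ) (ct : CT) {β j d e S : ℕ} (hS : S ≤ 18)
    (h1 : e = d + (j + β)) (h2 : d % 2 ^ 18 = d % 2 ^ S) :
    gv F ct (β + (j + (d + 2 ^ 79) % 2 ^ S)) = gv F ct e := by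
  have h5 : (d + 2 ^ 79) % 2 ^ S = d % 2 ^ 18 := by
    rw [h2]
    obtain ⟨T, hT⟩ : ∃ T, 79 = S + T := ⟨79 - S, by omega⟩
    rw [hT, pow_add, Nat.add_mul_mod_self_left]
  unfold gv
  have h6 : (β + (j + (d + 2 ^ 79) % 2 ^ S)) % 2 ^ 18 = e % 2 ^ 18 := by
    rw [h5, h1]
    norm_num
    omega
  rw [h6]

theorem jn_lt (L : List (ℕ × ℕ)) : jn L < 2 ^ (80 * nn L) := by
  induction L with
  | nil => simp [jn, nn]
  | cons c L ih =>
    rw [jn_cons]
    have e1 : nn (c :: L) = c.1 + nn L := rfl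
    rw [e1, mul_add, pow_add]
    have h1 : c.2 % 2 ^ (80 * c.1) < 2 ^ (80 * c.1) := Nat.mod_lt _ (by positivity)
    calc c.2 % 2 ^ (80 * c.1) + jn L * 2 ^ (80 * c.1)
        < 2 ^ (80 * c.1) + jn L * 2 ^ (80 * c.1) := by omega
      _ = 2 ^ (80 * c.1) * (jn L + 1) := by ring
      _ ≤ 2 ^ (80 * c.1) * 2 ^ (80 * nn L) := Nat.mul_le_mul_left _ ih

theorem del_aux {a S : ℕ} (ha : a < 2 ^ 18) (hS : S ≤ 18) (h6 : a &&& (2 ^ 18 - 2 ^ S) = 0) :
    a = a % 2 ^ S := by
  apply Nat.eq_of_testBit_eq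
  intro t
  rw [Nat.testBit_mod_two_pow]
  by_cases t1 : t < S
  · simp [t1]
  · by_cases t2 : t < 18
    · have h7 := congrArg (fun Y => Nat.testBit Y t) h6
      simp only [Nat.testBit_and, Nat.zero_testBit] at h7
      have h8 : (2 ^ 18 - 2 ^ S : ℕ).testBit t = true := by
        have h9 : (2 ^ 18 - 2 ^ S : ℕ) = 2 ^ S * (2 ^ (18 - S) - 1) := by
          rw [Nat.mul_sub, ← pow_add, mul_one]
          congr 2
          omega
        rw [h9, Nat.testBit_two_pow_mul, Nat.testBit_two_pow_sub_one]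
        have a1 : t ≥ S := by omega
        have a2 : t - S < 18 - S := by omega
        simp [a1, a2]
      rw [h8, Bool.and_true] at h7
      simp [t1, h7]
    · have h9 : a.testBit t = false := by
        apply Nat.testBit_lt_two_pow
        exact lt_of_lt_of_le ha (Nat.pow_le_pow_right (by norm_num) (by omega))
      simp [t1, h9]

theorem f0_lt {d e : ℕ} (h1 : e < 2 ^ 79) {x : ℕ} (h2 : e = d + x) : d + 2 ^ 79 < 2 ^ 80 := by
  rw [pw79] at h1 ⊢
  rw [pw80]
  omega

/-- the start has the value of the list. -/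
theorem start {ct : CT} {L : List (ℕ × ℕ)} {β S N : ℕ} (hS : S ≤ 18) (hN : nn L ≤ N)
    (hβ : β + nn L ≤ 2 ^ 30) (hk : c0X (onX (nn L)) (nn L) β (jn L) S = true) :
    ∃ f, Rp N (x0X (onX (nn L)) (nn L) β (jn L)) f ∧
      MM N (fun i => gv F ct (β + i)) S f = evL F ct L := by
  obtain ⟨n, hn⟩ : ∃ n, n = nn L := ⟨_, rfl⟩
  obtain ⟨O, hO⟩ : ∃ O, O = jn L := ⟨_, rfl⟩
  rw [evL_sum]
  rw [← hn, ← hO] at hk ⊢
  rw [← hn] at hN hβ
  have hOlt : O < 2 ^ (80 * n) := by
    rw [hO, hn]; exact jn_lt L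
  obtain ⟨D, hD⟩ : ∃ D, D = Nat.sub O (jbX (onX n) n β) := ⟨_, rfl⟩
  have hk' : Nat.beq (Nat.lor (Nat.lor
    (Nat.xor (Nat.add D (jbX (onX n) n β)) O)
    (Nat.xor (Nat.land (Nat.shiftRight D (nat_lit 18)) (Nat.mul (onX n) (nat_lit 4611686018427387903)))
      (Nat.land (Nat.shiftRight O (nat_lit 18)) (Nat.mul (onX n) (nat_lit 4611686018427387903)))))
    (Nat.lor (Nat.land (Nat.shiftRight O (nat_lit 79)) (onX n))
      (Nat.land (Nat.land D (Nat.mul (onX n) (nat_lit 262143)))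
        (Nat.mul (onX n) (Nat.sub (nat_lit 262144) (Nat.shiftLeft (nat_lit 1) S))))))
    (nat_lit 0) = true := by rw [hD]; exact hk
  obtain ⟨k1, k2⟩ := nlor (Nat.eq_of_beq_eq_true hk')
  obtain ⟨k3, k4⟩ := nlor k1
  obtain ⟨k5, k6⟩ := nlor k2
  have k3 : D + jbX (onX n) n β = O := nxor k3
  have k4 := nxor k4
  have hDlt : D < 2 ^ (80 * n) := lt_of_le_of_lt (hD ▸ Nat.sub_le _ _) hOlt
  clear hk hk' k1 k2
  have rO := ofB_en n O hOlt
  have rD := ofB_en n D hDlt
  have lO : ∀ i < n, en O i < 2 ^ 80 := fun i _ => en_lt O i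
  have lD : ∀ i < n, en D i < 2 ^ 80 := fun i _ => en_lt D i
  have m4 := (hi62 rD lD).symm.trans (k4.trans (hi62 rO lO))
  have hq := ofB_inj (fun i hi => lt_of_le_of_lt (Nat.div_le_self _ _) (lD i hi))
    (fun i hi => lt_of_le_of_lt (Nat.div_le_self _ _) (lO i hi)) m4
  have m5 := (flag_eq (s := 79) rO lO (by norm_num)).symm.trans k5
  have h79 := ofB_zero_iff m5
  have hO79 : ∀ i < n, en O i < 2 ^ 79 := fun i hi => lt79_of (h79 i hi) (lO i hi)
  have hsum : ofB n (fun j => en O j) = ofB n (fun j => en D j) + (ofB n fun j => j + β) := by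
    rw [← rO, ← rD, ← jbX_eq]; exact k3.symm
  have hed := nocarry n _ _ β lO lD (fun i hi => hq i hi) hβ hsum
  have hdel : ∀ i < n, en D i % 2 ^ 18 = en D i % 2 ^ S := by
    have h1 : Nat.land D (Nat.mul (onX n) 262143) = ofB n fun i => en D i % 2 ^ 18 := by
      have := sel_eq (N := n) (X := D) (w := 18) (M := 262143) (f := fun j => en D j)
        (b := fun _ => 1) rD lD (fun _ _ => Or.inr rfl) (by norm_num) (by norm_num)
      rw [← onX_eq] at this
      rw [this]
      exact ofB_congr fun i _ => one_mul _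
    have h2 : Nat.mul (onX n) (Nat.sub 262144 (Nat.shiftLeft 1 S)) = ofB n fun _ => 2 ^ 18 - 2 ^ S := by
      show onX n * (262144 - Nat.shiftLeft 1 S) = _
      rw [onX_eq, ofB_mul, shl_eq]
      exact ofB_congr fun i _ => by norm_num
    have h3 : ∀ i < n, en D i % 2 ^ 18 < 2 ^ 80 := fun i _ =>
      lt_trans (Nat.mod_lt _ (by positivity)) (by norm_num)
    have h4 : ∀ i < n, (2 : ℕ) ^ 18 - 2 ^ S < 2 ^ 80 := fun i _ =>
      lt_of_le_of_lt (Nat.sub_le _ _) (by norm_num)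
    have k6' : Nat.land (ofB n fun i => en D i % 2 ^ 18) (ofB n fun _ => 2 ^ 18 - 2 ^ S) = 0 := by
      rw [← h1, ← h2]; exact k6
    rw [land_ofB n _ _ h3 h4] at k6'
    have h5 := ofB_zero_iff k6'
    intro i hi
    have h7 := del_aux (Nat.mod_lt _ (by positivity)) hS (h5 i hi)
    rw [h7, Nat.mod_mod_of_dvd _ (Nat.pow_dvd_pow 2 hS)]
  refine ⟨fun i => if i < n then en D i + 2 ^ 79 else 0, ⟨?_, ?_, ?_⟩, ?_⟩
  · have e1 : x0X (onX n) n β O = D + onX n * 604462909807314587353088 := by rw [hD]; rfl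
    have e2 : onX n * 604462909807314587353088 = ofB n fun _ => 2 ^ 79 := by
      rw [onX_eq, ofB_mul]
      exact ofB_congr fun i _ => by norm_num
    rw [e1, e2]
    conv_lhs => rw [rD]
    rw [ofB_add]
    obtain ⟨M, rfl⟩ : ∃ M, N = n + M := Nat.exists_eq_add_of_le hN
    unfold ofB
    rw [sum_range_add]
    have e3 : ∑ x ∈ range M, (if n + x < n then en D (n + x) + 2 ^ 79 else 0) * 2 ^ (80 * (n + x)) = 0 :=
      sum_eq_zero fun x _ => by rw [if_neg (Nat.not_lt.2 (Nat.le_add_right _ _)), zero_mul]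
    rw [e3, add_zero]
    refine sum_congr rfl fun i hi => ?_
    show (en D i + 2 ^ 79) * 2 ^ (80 * i) = (if i < n then en D i + 2 ^ 79 else 0) * 2 ^ (80 * i)
    rw [if_pos (mem_range.1 hi)]
  · intro i hi
    show (if i < n then en D i + 2 ^ 79 else 0) < 2 ^ 80
    split_ifs with h
    · exact f0_lt (hO79 i h) (hed i h)
    · positivity
  · intro i hi
    show (if i < n then en D i + 2 ^ 79 else 0) = 0 ∨ 2 ^ 79 ≤ (if i < n then en D i + 2 ^ 79 else 0)
    by_cases h : i < n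
    · rw [if_pos h]; exact Or.inr (Nat.le_add_left (2 ^ 79) (en D i))
    · rw [if_neg h]; exact Or.inl rfl
  · unfold MM
    obtain ⟨M, rfl⟩ : ∃ M, N = n + M := Nat.exists_eq_add_of_le hN
    rw [sum_range_add]
    have e3 : ∑ x ∈ range M, wt (if n + x < n then en D (n + x) + 2 ^ 79 else 0)
        * gv F ct (β + (n + x + (if n + x < n then en D (n + x) + 2 ^ 79 else 0) % 2 ^ S)) = 0 :=
      sum_eq_zero fun x _ => by
        rw [if_neg (Nat.not_lt.2 (Nat.le_add_right _ _)), wt_zero, zero_mul]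
    rw [e3, add_zero]
    refine sum_congr rfl fun j hj => ?_
    have hj' := mem_range.1 hj
    show wt (if j < n then en D j + 2 ^ 79 else 0)
      * gv F ct (β + (j + (if j < n then en D j + 2 ^ 79 else 0) % 2 ^ S)) = _
    rw [if_pos hj']
    rw [ev_gv ct (hO79 j hj'), wt_shift (hq j hj'), gv_shift F ct hS (hed j hj') (hdel j hj')]

end Vale.Agent.P355.H998.R
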