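import Vale.Agent.P355.H998.R.Lst

/-! Packed sums of sparse lists and the norm of the residual. -/

namespace Vale.Agent.P355.H998.R

open Finset Vale.Agent.P355 Vale.Agent.P355.H387 H138 H693.Inj

variable {F : Bool → Mt → ℝ}

theorem ofB_le {N : ℕ} {f g : ℕ → ℕ} (h : ∀ i < N, f i ≤ g i) : ofB N f ≤ ofB N g :=
  sum_le_sum fun i hi => Nat.mul_le_mul_right _ (h i (mem_range.1 hi))

theorem ofB_sub {N : ℕ} {f g : ℕ → ℕ} (h : ∀ i < N, g i ≤ f i) :
    ofB N f - ofB N g = ofB N fun i => f i - g i := by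
  have h1 : ofB N f = (ofB N fun i => f i - g i) + ofB N g := by
    rw [ofB_add]
    exact ofB_congr fun i hi => (Nat.sub_add_cancel (h i hi)).symm
  rw [h1, Nat.add_sub_cancel]

/-- a field of every digit. -/
theorem fld_eq {N X s w M : ℕ} {f : ℕ → ℕ} (hX : X = ofB N f) (hf : ∀ i < N, f i < 2 ^ 80)
    (hsw : s + w ≤ 80) (hM : M = 2 ^ w - 1) :
    Nat.land (Nat.shiftRight X s) (Nat.mul (onX N) M) = ofB N fun i => f i / 2 ^ s % 2 ^ w := by
  apply Nat.eq_of_testBit_eq
  intro k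
  have hw80 : (2 : ℕ) ^ w ≤ 2 ^ 80 := Nat.pow_le_pow_right (by norm_num) (by omega)
  have hw0 : 0 < (2 : ℕ) ^ w := by positivity
  rw [ofB_testBit N _ fun i hi => lt_of_lt_of_le (Nat.mod_lt _ hw0) hw80]
  show ((X >>> s) &&& (onX N * M)).testBit k = _
  rw [onX_eq, ofB_mul, Nat.testBit_and, Nat.testBit_shiftRight,
    ofB_testBit N _ fun i _ => by rw [one_mul, hM]; omega, hX, ofB_testBit N f hf]
  rw [one_mul, hM, Nat.testBit_two_pow_sub_one, Nat.testBit_mod_two_pow]
  have e4 : (f (k / 80) / 2 ^ s).testBit (k % 80) = (f (k / 80)).testBit (s + k % 80) := by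
    rw [← Nat.shiftRight_eq_div_pow, Nat.testBit_shiftRight]
  rw [e4]
  by_cases h1 : k % 80 < w
  · have e2 : (s + k) / 80 = k / 80 := by omega
    have e3 : (s + k) % 80 = s + k % 80 := by omega
    rw [e2, e3]
    by_cases h2 : k / 80 < N <;> simp [h1, h2]
  · simp [h1]

/-- packed signed digits stand for the value `V`. -/
def VR (N A B M : ℕ) (u : ℕ → ℝ) (V : ℝ) : Prop :=
  ∃ a b : ℕ → ℕ, A = ofB N a ∧ B = ofB N b ∧ (∀ i < N, a i ≤ M ∧ b i ≤ M) ∧
    V = ∑ i ∈ range N, ((a i : ℝ) - b i) * u i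

theorem VR.zero (N : ℕ) (u : ℕ → ℝ) : VR N 0 0 0 u 0 :=
  ⟨fun _ => 0, fun _ => 0, by simp [ofB], by simp [ofB], fun _ _ => ⟨le_rfl, le_rfl⟩, by simp⟩

theorem VR.add {N A B M A' B' M' : ℕ} {u : ℕ → ℝ} {V V' : ℝ} (h : VR N A B M u V)
    (h' : VR N A' B' M' u V') : VR N (A + A') (B + B') (M + M') u (V + V') := by
  obtain ⟨a, b, h1, h2, h3, h4⟩ := h
  obtain ⟨a', b', h1', h2', h3', h4'⟩ := h'
  refine ⟨fun i => a i + a' i, fun i => b i + b' i, ?_, ?_, ?_, ?_⟩
  · rw [h1, h1', ofB_add]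
  · rw [h2, h2', ofB_add]
  · exact fun i hi => ⟨Nat.add_le_add (h3 i hi).1 (h3' i hi).1,
      Nat.add_le_add (h3 i hi).2 (h3' i hi).2⟩
  · rw [h4, h4', ← sum_add_distrib]
    exact sum_congr rfl fun i _ => by push_cast; ring

theorem VR.neg {N A B M : ℕ} {u : ℕ → ℝ} {V : ℝ} (h : VR N A B M u V) : VR N B A M u (-V) := by
  obtain ⟨a, b, h1, h2, h3, h4⟩ := h
  refine ⟨b, a, h2, h1, fun i hi => (h3 i hi).symm, ?_⟩
  rw [h4, ← sum_neg_distrib]
  exact sum_congr rfl fun i _ => by ring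

/-! ### One list -/

/-- the scattered list. -/
def yX (on S β : ℕ) (L : List (ℕ × ℕ)) : ℕ :=
  (fun n : ℕ => xsX on S (x0X (onX n) n β (jn L))) (nn L)

/-- check of a list. -/
def ckL (on nb N S β : ℕ) (L : List (ℕ × ℕ)) : Bool :=
  (fun n : ℕ => Bool.rec (motive := fun _ => Bool) false
    (Bool.rec (motive := fun _ => Bool) false
      (csX on nb S (x0X (onX n) n β (jn L))) (c0X (onX n) n β (jn L) S)) (Nat.ble n N)) (nn L)

/-- magnitudes. -/
def mgY (on Y : ℕ) : ℕ := Nat.land (Nat.shiftRight Y (nat_lit 19)) (Nat.mul on (nat_lit 1152921504606846975))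

/-- negative magnitudes. -/
def mnY (on Y : ℕ) : ℕ := Nat.land (mgY on Y)
  (Nat.mul (Nat.land (Nat.shiftRight Y (nat_lit 18)) on) (nat_lit 1152921504606846975))

theorem list_VR {ct : CT} {L : List (ℕ × ℕ)} {β S N : ℕ} (hS : S ≤ 18) (hβ : β + N ≤ 2 ^ 30)
    (hk : ckL (onX N) (80 * N) N S β L = true) :
    VR N (mgY (onX N) (yX (onX N) S β L)) (2 * mnY (onX N) (yX (onX N) S β L)) (2 ^ 61)
      (fun i => gv F ct (β + i)) (evL F ct L) := by
  have hk' : @Bool.rec (fun _ => Bool) false (@Bool.rec (fun _ => Bool) false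
      (csX (onX N) (80 * N) S (x0X (onX (nn L)) (nn L) β (jn L)))
      (c0X (onX (nn L)) (nn L) β (jn L) S)) (Nat.ble (nn L) N) = true := hk
  obtain ⟨h1, h2⟩ := bct hk'
  obtain ⟨h3, h4⟩ := bct h2
  have hn : nn L ≤ N := Nat.le_of_ble_eq_true h1
  obtain ⟨f, a1, a2⟩ := start (F := F) (ct := ct) hS hn (le_trans (Nat.add_le_add_left hn β) hβ) h3
  obtain ⟨g, b1, b2⟩ := stages S (le_trans hS (by norm_num)) a1 h4
  have hY : yX (onX N) S β L = xsX (onX N) S (x0X (onX (nn L)) (nn L) β (jn L)) := rfl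
  rw [hY]
  generalize xsX (onX N) S (x0X (onX (nn L)) (nn L) β (jn L)) = Y at b1 ⊢
  have e1 : mgY (onX N) Y = ofB N fun i => g i / 2 ^ 19 % 2 ^ 60 :=
    fld_eq b1.eq b1.lt (by norm_num) (by norm_num)
  have e2 : mnY (onX N) Y = ofB N fun i => (g i / 2 ^ 18 % 2) * (g i / 2 ^ 19 % 2 ^ 60) := by
    unfold mnY
    have e3 := flag_eq (s := 18) b1.eq b1.lt (by norm_num)
    have e4 := sel_eq (N := N) (w := 60) (M := 1152921504606846975) (b := fun i => g i / 2 ^ 18 % 2) e1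
      (fun i _ => lt_trans (Nat.mod_lt _ (by positivity)) (by norm_num))
      (fun i _ => by omega) (by norm_num) (by norm_num)
    have e5 : Nat.land (Nat.shiftRight Y (nat_lit 18)) (onX N) = ofB N fun i => g i / 2 ^ 18 % 2 := e3
    rw [e5]
    have e6 : Nat.land (mgY (onX N) Y) (Nat.mul (ofB N fun i => g i / 2 ^ 18 % 2) (nat_lit 1152921504606846975))
      = ofB N fun i => (g i / 2 ^ 18 % 2) * (g i / 2 ^ 19 % 2 ^ 60 % 2 ^ 60) := e4
    rw [e6]
    exact ofB_congr fun i _ => by rw [Nat.mod_mod]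
  refine ⟨fun i => g i / 2 ^ 19 % 2 ^ 60, fun i => 2 * ((g i / 2 ^ 18 % 2) * (g i / 2 ^ 19 % 2 ^ 60)),
    e1, ?_, ?_, ?_⟩
  · rw [e2, mul_comm, ofB_mul]
    exact ofB_congr fun i _ => mul_comm _ _
  · intro i _
    have h5 : g i / 2 ^ 19 % 2 ^ 60 < 2 ^ 60 := Nat.mod_lt _ (by positivity)
    have h6 : g i / 2 ^ 18 % 2 ≤ 1 := by omega
    have h7 : (g i / 2 ^ 18 % 2) * (g i / 2 ^ 19 % 2 ^ 60) ≤ 1 * (g i / 2 ^ 19 % 2 ^ 60) :=
      Nat.mul_le_mul_right _ h6
    rw [one_mul] at h7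
    have h8 : (2 : ℕ) ^ 61 = 2 * 2 ^ 60 := by norm_num
    rw [h8]
    show g i / 2 ^ 19 % 2 ^ 60 ≤ 2 * 2 ^ 60 ∧ 2 * ((g i / 2 ^ 18 % 2) * (g i / 2 ^ 19 % 2 ^ 60)) ≤ 2 * 2 ^ 60
    generalize g i / 2 ^ 19 % 2 ^ 60 = z at h5 h7 ⊢
    generalize (g i / 2 ^ 18 % 2) * z = y at h7 ⊢
    generalize (2 : ℕ) ^ 60 = B at h5 ⊢
    constructor <;> omega
  · have h5 := b2 fun i => gv F ct (β + i)
    rw [a2] at h5
    rw [← h5]
    unfold MM
    refine sum_congr rfl fun i _ => ?_
    have a1' : ∀ a, Nat.land (Nat.shiftRight a 18) 1 = (a / 2 ^ 18) % 2 := fun a => by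
      rw [land1]; exact congrArg (· % 2) (Nat.shiftRight_eq_div_pow _ _)
    have a2' : ∀ a, Nat.shiftRight a 19 = a / 2 ^ 19 := fun a => Nat.shiftRight_eq_div_pow _ _
    unfold wt sgn mag
    rw [a1', a2', pow_zero, Nat.mod_one, add_zero]
    push_cast
    ring

/-! ### Sums of lists -/

/-- checks of the lists. -/
def ckLL (on nb N S β : ℕ) (LL : List (List (ℕ × ℕ))) : Bool :=
  List.rec (motive := fun _ => Bool) true
    (fun L _ ih => Bool.rec (motive := fun _ => Bool) false ih (ckL on nb N S β L)) LL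

/-- sum of the magnitudes. -/
def sgLL (on S β : ℕ) (LL : List (List (ℕ × ℕ))) : ℕ :=
  List.rec (motive := fun _ => ℕ) (nat_lit 0)
    (fun L _ ih => Nat.add (mgY on (yX on S β L)) ih) LL

/-- twice the sum of the negative magnitudes. -/
def snLL (on S β : ℕ) (LL : List (List (ℕ × ℕ))) : ℕ :=
  List.rec (motive := fun _ => ℕ) (nat_lit 0)
    (fun L _ ih => Nat.add (Nat.mul (nat_lit 2) (mnY on (yX on S β L))) ih) LL

/-- length. -/
def lnLL (LL : List (List (ℕ × ℕ))) : ℕ :=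
  List.rec (motive := fun _ => ℕ) (nat_lit 0) (fun _ _ ih => Nat.add (nat_lit 1) ih) LL

theorem lists_VR {ct : CT} {β S N : ℕ} (hS : S ≤ 18) (hβ : β + N ≤ 2 ^ 30)
    {LL : List (List (ℕ × ℕ))} (hk : ckLL (onX N) (80 * N) N S β LL = true) :
    VR N (sgLL (onX N) S β LL) (snLL (onX N) S β LL) (2 ^ 61 * lnLL LL)
      (fun i => gv F ct (β + i)) (LL.map (evL F ct)).sum := by
  induction LL with
  | nil => exact VR.zero N _
  | cons L LL ih =>
    obtain ⟨h1, h2⟩ := bct (t := ckLL (onX N) (80 * N) N S β LL)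
      (b := ckL (onX N) (80 * N) N S β L) hk
    have h3 := (list_VR (F := F) (ct := ct) hS hβ h1).add (ih h2)
    rw [List.map_cons, List.sum_cons]
    have e1 : 2 ^ 61 * lnLL (L :: LL) = 2 ^ 61 + 2 ^ 61 * lnLL LL := by
      have : lnLL (L :: LL) = 1 + lnLL LL := rfl
      rw [this]; ring
    rw [e1]
    exact h3

/-! ### The norm of the residual -/

/-- absolute values of the digits of `A - B`. -/
def abX (on A B : ℕ) : ℕ :=
  (fun R : ℕ => (fun Sg : ℕ => (fun Tg : ℕ =>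
    Nat.add (Nat.land R (Nat.mul Sg (nat_lit 604462909807314587353087)))
      (Nat.sub (Nat.mul Tg (nat_lit 604462909807314587353088))
        (Nat.land R (Nat.mul Tg (nat_lit 604462909807314587353087)))))
    (Nat.sub on Sg)) (Nat.land (Nat.shiftRight R (nat_lit 79)) on))
    (Nat.sub (Nat.add A (Nat.mul on (nat_lit 604462909807314587353088))) B)

theorem ab_dig {a b : ℕ} (ha : a < 2 ^ 79) (hb : b < 2 ^ 79) :
    ((a + 2 ^ 79 - b) / 2 ^ 79 % 2) * ((a + 2 ^ 79 - b) % 2 ^ 79)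
      + ((1 - (a + 2 ^ 79 - b) / 2 ^ 79 % 2) * 2 ^ 79
        - (1 - (a + 2 ^ 79 - b) / 2 ^ 79 % 2) * ((a + 2 ^ 79 - b) % 2 ^ 79)) = (a - b) + (b - a) := by
  rw [pw79] at *
  rcases Nat.lt_or_ge a b with h | h
  · have h1 : (a + 604462909807314587353088 - b) / 604462909807314587353088 = 0 := by omega
    have h2 : (a + 604462909807314587353088 - b) % 604462909807314587353088
      = a + 604462909807314587353088 - b := by omega
    rw [h1, h2]
    simp only [Nat.zero_mod, Nat.sub_zero, one_mul, zero_mul, zero_add]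
    omega
  · have h1 : (a + 604462909807314587353088 - b) / 604462909807314587353088 = 1 := by omega
    have h2 : (a + 604462909807314587353088 - b) % 604462909807314587353088 = a - b := by omega
    rw [h1, h2]
    simp only [show (1 : ℕ) % 2 = 1 from rfl, Nat.sub_self, one_mul, zero_mul, Nat.sub_zero, add_zero]
    omega

theorem abX_eq {N : ℕ} {a b : ℕ → ℕ} (ha : ∀ i < N, a i < 2 ^ 79) (hb : ∀ i < N, b i < 2 ^ 79) :
    abX (onX N) (ofB N a) (ofB N b) = ofB N fun i => (a i - b i) + (b i - a i) := by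
  obtain ⟨r, hr⟩ : ∃ r : ℕ → ℕ, r = fun i => a i + 2 ^ 79 - b i := ⟨_, rfl⟩
  have hr80 : ∀ i < N, r i < 2 ^ 80 := by
    intro i hi
    rw [hr]
    have h1 := ha i hi
    show a i + 2 ^ 79 - b i < 2 ^ 80
    rw [pw79] at h1 ⊢
    rw [pw80]
    omega
  have e2 : Nat.mul (onX N) (nat_lit 604462909807314587353088) = ofB N fun _ => 2 ^ 79 := by
    have : Nat.mul (onX N) (nat_lit 604462909807314587353088) = onX N * 604462909807314587353088 := rfl
    rw [this, onX_eq, ofB_mul]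
    exact ofB_congr fun i _ => by norm_num
  have e3 : Nat.sub (Nat.add (ofB N a) (Nat.mul (onX N) (nat_lit 604462909807314587353088))) (ofB N b)
      = ofB N r := by
    rw [e2]
    have h1 : Nat.sub (Nat.add (ofB N a) (ofB N fun _ => 2 ^ 79)) (ofB N b)
      = (ofB N a + ofB N fun _ => 2 ^ 79) - ofB N b := rfl
    rw [h1, ofB_add, ofB_sub fun i hi => by
      have := hb i hi
      exact le_trans this.le (Nat.le_add_left _ _), hr]
  obtain ⟨sf, hsf⟩ : ∃ sf : ℕ → ℕ, sf = fun i => r i / 2 ^ 79 % 2 := ⟨_, rfl⟩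
  have e4 : Nat.land (Nat.shiftRight (ofB N r) (nat_lit 79)) (onX N) = ofB N sf := by
    rw [hsf]
    exact flag_eq (s := 79) rfl hr80 (by norm_num)
  have hs01 : ∀ i < N, sf i = 0 ∨ sf i = 1 := fun i _ => by
    rw [hsf]
    show r i / 2 ^ 79 % 2 = 0 ∨ r i / 2 ^ 79 % 2 = 1
    omega
  have e5 : Nat.sub (onX N) (ofB N sf) = ofB N fun i => 1 - sf i := by
    rw [onX_eq]
    exact ofB_sub fun i hi => by rcases hs01 i hi with h | h <;> rw [h] <;> norm_num
  have e6 := sel_eq (N := N) (X := ofB N r) (w := 79) (M := 604462909807314587353087) (b := sf) rfl hr80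
    hs01 (by norm_num) (by norm_num)
  have e7 := sel_eq (N := N) (X := ofB N r) (w := 79) (M := 604462909807314587353087)
    (b := fun i => 1 - sf i) rfl hr80
    (fun i hi => by rcases hs01 i hi with h | h <;> rw [h] <;> norm_num) (by norm_num) (by norm_num)
  have e8 : Nat.mul (ofB N fun i => 1 - sf i) (nat_lit 604462909807314587353088)
      = ofB N fun i => (1 - sf i) * 2 ^ 79 := by
    have : Nat.mul (ofB N fun i => 1 - sf i) (nat_lit 604462909807314587353088)
      = (ofB N fun i => 1 - sf i) * 604462909807314587353088 := rfl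
    rw [this, ofB_mul]
    exact ofB_congr fun i _ => by norm_num
  have e9 : abX (onX N) (ofB N a) (ofB N b)
      = Nat.add (Nat.land (ofB N r) (Nat.mul (ofB N sf) (nat_lit 604462909807314587353087)))
        (Nat.sub (Nat.mul (ofB N fun i => 1 - sf i) (nat_lit 604462909807314587353088))
          (Nat.land (ofB N r) (Nat.mul (ofB N fun i => 1 - sf i) (nat_lit 604462909807314587353087)))) := by
    unfold abX
    rw [e3]
    show Nat.add (Nat.land (ofB N r) (Nat.mul (Nat.land (Nat.shiftRight (ofB N r) (nat_lit 79)) (onX N)) _))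
      (Nat.sub (Nat.mul (Nat.sub (onX N) (Nat.land (Nat.shiftRight (ofB N r) (nat_lit 79)) (onX N))) _)
        (Nat.land (ofB N r) (Nat.mul (Nat.sub (onX N)
          (Nat.land (Nat.shiftRight (ofB N r) (nat_lit 79)) (onX N))) _))) = _
    rw [e4, e5]
  rw [e9, e8]
  have e10 : Nat.land (ofB N r) (Nat.mul (ofB N sf) (nat_lit 604462909807314587353087))
      = ofB N fun i => sf i * (r i % 2 ^ 79) := e6
  have e11 : Nat.land (ofB N r) (Nat.mul (ofB N fun i => 1 - sf i) (nat_lit 604462909807314587353087))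
      = ofB N fun i => (1 - sf i) * (r i % 2 ^ 79) := e7
  rw [e10, e11]
  have e12 : Nat.sub (ofB N fun i => (1 - sf i) * 2 ^ 79) (ofB N fun i => (1 - sf i) * (r i % 2 ^ 79))
      = ofB N fun i => (1 - sf i) * 2 ^ 79 - (1 - sf i) * (r i % 2 ^ 79) :=
    ofB_sub fun i _ => Nat.mul_le_mul_left _ (Nat.mod_lt _ (by positivity)).le
  rw [e12]
  show (ofB N fun i => sf i * (r i % 2 ^ 79)) + ofB N (fun i => (1 - sf i) * 2 ^ 79 - (1 - sf i) * (r i % 2 ^ 79)) = _
  rw [ofB_add]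
  refine ofB_congr fun i hi => ?_
  have := ab_dig (ha i hi) (hb i hi)
  rw [hsf, hr]
  exact this

theorem ofB_mod (N : ℕ) (t : ℕ → ℕ) :
    ofB N t % (2 ^ 80 - 1) = (∑ i ∈ range N, t i) % (2 ^ 80 - 1) := by
  unfold ofB
  rw [Finset.sum_nat_mod, Finset.sum_nat_mod (range N) (2 ^ 80 - 1) t]
  congr 1
  refine sum_congr rfl fun i _ => ?_
  have h1 : (2 : ℕ) ^ (80 * i) % (2 ^ 80 - 1) = 1 % (2 ^ 80 - 1) := by
    rw [pow_mul]
    exact (Nat.ModEq.pow i (show (2 ^ 80 : ℕ) ≡ 1 [MOD (2 ^ 80 - 1)] by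
      show 2 ^ 80 % (2 ^ 80 - 1) = 1 % (2 ^ 80 - 1)
      norm_num)).trans (by rw [one_pow])
  rw [Nat.mul_mod, h1, ← Nat.mul_mod, mul_one]

/-- **check of the residual**: lists `LB` minus the rows `LL`, classes `β ≤ i < β + N`. -/
def resX (N S β : ℕ) (LB LL : List (List (ℕ × ℕ))) (E : ℕ) : Bool :=
  (fun on nb : ℕ => (fun T : ℕ => Bool.rec (motive := fun _ => Bool) false
    (Bool.rec (motive := fun _ => Bool) false
      (Bool.rec (motive := fun _ => Bool) false
        (Bool.rec (motive := fun _ => Bool) false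
          (Bool.rec (motive := fun _ => Bool) false
            (Bool.rec (motive := fun _ => Bool) false
              (Nat.ble (Nat.mod T (nat_lit 1208925819614629174706175)) E)
              (Nat.beq (Nat.land T (Nat.mul on (nat_lit 1208924666693124567859200)))
                (nat_lit 0)))
            (ckLL on nb N S β LL))
          (ckLL on nb N S β LB))
        (Nat.ble (Nat.add (lnLL LB) (lnLL LL)) (nat_lit 131072)))
      (Nat.ble S (nat_lit 18)))
    (Nat.ble (Nat.add β N) (nat_lit 262144)))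
    (abX on (Nat.add (sgLL on S β LB) (snLL on S β LL)) (Nat.add (snLL on S β LB) (sgLL on S β LL))))
    (onX N) (Nat.mul (nat_lit 80) N)

theorem abs_sum_le {N : ℕ} {u : ℕ → ℝ} {c : ℝ} (hc : ∀ i, |u i| ≤ c) (a b : ℕ → ℕ) :
    |∑ i ∈ range N, ((a i : ℝ) - b i) * u i|
      ≤ c * ((∑ i ∈ range N, ((a i - b i) + (b i - a i)) : ℕ) : ℝ) := by
  have hc0 : 0 ≤ c := (abs_nonneg _).trans (hc 0)
  refine (abs_sum_le_sum_abs _ _).trans ?_
  rw [Nat.cast_sum, mul_sum]
  refine sum_le_sum fun i _ => ?_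
  rw [abs_mul]
  have h1 : |(a i : ℝ) - b i| = (((a i - b i) + (b i - a i) : ℕ) : ℝ) := by
    rcases le_total (a i) (b i) with h | h
    · rw [Nat.sub_eq_zero_of_le h, zero_add, Nat.cast_sub h, abs_sub_comm, abs_of_nonneg]
      have : (a i : ℝ) ≤ b i := by exact_mod_cast h
      linarith
    · rw [Nat.sub_eq_zero_of_le h, add_zero, Nat.cast_sub h, abs_of_nonneg]
      have : (b i : ℝ) ≤ a i := by exact_mod_cast h
      linarith
  rw [h1, mul_comm]
  exact mul_le_mul_of_nonneg_right (hc i) (Nat.cast_nonneg _)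

/-- **the residual is small.** -/
theorem resX_sound {c : ℝ} (hc : ∀ b M, |F b M| ≤ c) {ct : CT} {N S β : ℕ}
    {LB LL : List (List (ℕ × ℕ))} {E : ℕ} (h : resX N S β LB LL E = true) :
    |(LB.map (evL F ct)).sum - (LL.map (evL F ct)).sum| ≤ c * E := by
  obtain ⟨T, hT⟩ : ∃ T, T = abX (onX N) (Nat.add (sgLL (onX N) S β LB) (snLL (onX N) S β LL))
    (Nat.add (snLL (onX N) S β LB) (sgLL (onX N) S β LL)) := ⟨_, rfl⟩
  have h' : @Bool.rec (fun _ => Bool) false
    (@Bool.rec (fun _ => Bool) false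
      (@Bool.rec (fun _ => Bool) false
        (@Bool.rec (fun _ => Bool) false
          (@Bool.rec (fun _ => Bool) false
            (@Bool.rec (fun _ => Bool) false
              (Nat.ble (Nat.mod T (nat_lit 1208925819614629174706175)) E)
              (Nat.beq (Nat.land T (Nat.mul (onX N) (nat_lit 1208924666693124567859200)))
                (nat_lit 0)))
            (ckLL (onX N) (80 * N) N S β LL))
          (ckLL (onX N) (80 * N) N S β LB))
        (Nat.ble (Nat.add (lnLL LB) (lnLL LL)) (nat_lit 131072)))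
      (Nat.ble S (nat_lit 18)))
    (Nat.ble (Nat.add β N) (nat_lit 262144)) = true := by rw [hT]; exact h
  obtain ⟨k1, h1⟩ := bct h'
  obtain ⟨k2, h2⟩ := bct h1
  obtain ⟨k3, h3⟩ := bct h2
  obtain ⟨k4, h4⟩ := bct h3
  obtain ⟨k5, h5⟩ := bct h4
  obtain ⟨k6, h6⟩ := bct h5
  have k1 : β + N ≤ 262144 := Nat.le_of_ble_eq_true k1
  have k2 : S ≤ 18 := Nat.le_of_ble_eq_true k2
  have k3 : lnLL LB + lnLL LL ≤ 131072 := Nat.le_of_ble_eq_true k3
  have k7 : T % 1208925819614629174706175 ≤ E := Nat.le_of_ble_eq_true h6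
  have k6 := Nat.eq_of_beq_eq_true k6
  have v1 := lists_VR (F := F) (ct := ct) k2 (le_trans k1 (by norm_num)) k4
  have v2 := lists_VR (F := F) (ct := ct) k2 (le_trans k1 (by norm_num)) k5
  obtain ⟨a, b, a1, a2, a3, a4⟩ := v1.add v2.neg
  have hM : 2 ^ 61 * lnLL LB + 2 ^ 61 * lnLL LL < 2 ^ 79 := by
    rw [← Nat.mul_add]
    calc 2 ^ 61 * (lnLL LB + lnLL LL) ≤ 2 ^ 61 * 131072 := Nat.mul_le_mul_left _ k3
      _ < 2 ^ 79 := by norm_num
  have ha : ∀ i < N, a i < 2 ^ 79 := fun i hi => lt_of_le_of_lt (a3 i hi).1 hM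
  have hb : ∀ i < N, b i < 2 ^ 79 := fun i hi => lt_of_le_of_lt (a3 i hi).2 hM
  have eT : T = ofB N fun i => (a i - b i) + (b i - a i) := by
    rw [hT, ← abX_eq ha hb, ← a1, ← a2]
    rfl
  obtain ⟨t, ht⟩ : ∃ t : ℕ → ℕ, t = fun i => (a i - b i) + (b i - a i) := ⟨_, rfl⟩
  rw [← ht] at eT
  have ht79 : ∀ i < N, t i < 2 ^ 79 := by
    intro i hi
    have h1 := ha i hi
    have h2 := hb i hi
    rw [ht]
    show (a i - b i) + (b i - a i) < 2 ^ 79
    generalize (2 : ℕ) ^ 79 = B at h1 h2 ⊢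
    omega
  have hMk : Nat.mul (onX N) (nat_lit 1208924666693124567859200) = ofB N fun _ => 2 ^ 80 - 2 ^ 60 := by
    have : Nat.mul (onX N) (nat_lit 1208924666693124567859200) = onX N * 1208924666693124567859200 := rfl
    rw [this, onX_eq, ofB_mul]
    exact ofB_congr fun i _ => by norm_num
  rw [eT, hMk, land_ofB N _ _ (fun i hi => lt_trans (ht79 i hi) (by norm_num))
    (fun i _ => by norm_num)] at k6
  have ht60 : ∀ i < N, t i ≤ 2 ^ 60 := by
    intro i hi
    have h1 : t i &&& (2 ^ 80 - 2 ^ 60) = 0 := ofB_zero_iff k6 i hi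
    have h2 : t i = t i % 2 ^ 60 := by
      apply Nat.eq_of_testBit_eq
      intro q
      rw [Nat.testBit_mod_two_pow]
      by_cases q1 : q < 60
      · simp [q1]
      · by_cases q2 : q < 80
        · have h7 := congrArg (fun Y => Nat.testBit Y q) h1
          simp only [Nat.testBit_and, Nat.zero_testBit] at h7
          have h8 : (2 ^ 80 - 2 ^ 60 : ℕ).testBit q = true := by
            have h9 : (2 ^ 80 - 2 ^ 60 : ℕ) = 2 ^ 60 * (2 ^ 20 - 1) := by norm_num
            rw [h9, Nat.testBit_two_pow_mul, Nat.testBit_two_pow_sub_one]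
            have a1 : q ≥ 60 := by omega
            have a2 : q - 60 < 20 := by omega
            simp [a1, a2]
          rw [h8, Bool.and_true] at h7
          simp [q1, h7]
        · have h9 : (t i).testBit q = false := by
            apply Nat.testBit_lt_two_pow
            exact lt_of_lt_of_le (ht79 i hi) (Nat.pow_le_pow_right (by norm_num) (by omega))
          simp [q1, h9]
    rw [h2]
    exact (Nat.mod_lt _ (by positivity)).le
  have hsum : ∑ i ∈ range N, t i < 2 ^ 80 - 1 := by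
    have h1 : ∑ i ∈ range N, t i ≤ N * 2 ^ 60 := by
      calc ∑ i ∈ range N, t i ≤ ∑ _i ∈ range N, 2 ^ 60 :=
            sum_le_sum fun i hi => ht60 i (mem_range.1 hi)
        _ = N * 2 ^ 60 := by simp
    refine lt_of_le_of_lt h1 ?_
    calc N * 2 ^ 60 ≤ 262144 * 2 ^ 60 := Nat.mul_le_mul_right _ (by omega)
      _ < 2 ^ 80 - 1 := by norm_num
  have hmod := ofB_mod N t
  rw [Nat.mod_eq_of_lt hsum, ← eT] at hmod
  have k8 : ∑ i ∈ range N, t i ≤ E := by
    rw [← hmod]
    have : (2 ^ 80 - 1 : ℕ) = 1208925819614629174706175 := by norm_num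
    rw [this]; exact k7
  have hu : ∀ i, |gv F ct (β + i)| ≤ c := fun i => hc _ _
  have hc0 : 0 ≤ c := (abs_nonneg _).trans (hu 0)
  rw [sub_eq_add_neg, a4]
  refine (abs_sum_le hu a b).trans (mul_le_mul_of_nonneg_left ?_ hc0)
  have : (∑ i ∈ range N, ((a i - b i) + (b i - a i)) : ℕ) ≤ E := by
    rw [ht] at k8; exact k8
  exact_mod_cast this

end Vale.Agent.P355.H998.R
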