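import Vale.Agent.P355.H998.R.Wk

/-! Residual in blocks of 2048 identifiers. -/

namespace Vale.Agent.P355.H998.R

open Finset Vale.Agent.P355 Vale.Agent.P355.H387 H138 H693.Inj

/-- residual of block `b` (2048 identifiers). -/
def rV (BL AL : List (List (ℕ × ℕ) × ℕ)) (b E : ℕ) : Bool :=
  resX (nat_lit 2048) (nat_lit 11) (Nat.mul (nat_lit 2048) b) (colW b BL) (colW b AL) E

theorem RW.ofV (ct : CT) {BL AL : List (List (ℕ × ℕ) × ℕ)} {b E : ℕ} (h : rV BL AL b E = true) :
    RW ct BL AL b E := by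
  intro F c hc
  rw [← colW_sum, ← colW_sum]
  exact resX_sound hc h

end Vale.Agent.P355.H998.R
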